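import Vale.Agent.P179.R2.H12.Half

/-!
# Fong–Reynolds for the block of the centraliser of a normal `p`-subgroup
-/

namespace P179H12

open Subgroup Finset P179H524 P179C P179A P179P P179Y P179H872

open scoped Classical

universe u

section

variable {p : ℕ} [hp : Fact p.Prime] {k : Type u} [Field k] [IsAlgClosed k] [CharP k p]
  {G : Type} [Group G] [Fintype G] {H : Subgroup G} {l : (G → k) → k}

include hp in
/-- **Fong–Reynolds**: the number of simple modules of `B` is the one of the block of the
stabiliser -/
theorem numSimple_stH [hHn : H.Normal] {B : MonoidAlgebra k G} (hB : IsBlock B)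
    (hBH : ∀ x, x ∉ H → B.coeff x = 0) (hml : MulH H l)
    (hlB : ∀ z, IsCF z → l z = centralChar B (mkF z))
    {b : MonoidAlgebra k H} (hb : IsBlock b) (hlb : Low H l b) :
    numSimpleIn B = numSimpleIn (mkF fun t : stH H l => bF H b t) := by
  have hcov := cover H hB hBH hml hlB hb hlb
  have hN : ∀ g : G, g ∈ normalizer (H : Set G) := by
    intro g
    rw [normalizer_eq_top]
    exact mem_top g
  have hHT : H ≤ stH H l := le_stH
  have heT : ∀ t ∈ stH H l, ∀ x, bF H b (t * x * t⁻¹) = bF H b x := by
    intro t ht x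
    have h1 := (mem_stH_iff hml hb hlb (hN t⁻¹)).1 (inv_mem ht)
    have h2 := congrFun h1 x
    unfold cj at h2
    rwa [inv_inv] at h2
  have horth : ∀ g, g ∉ stH H l → conv (bF H b) (cj g (bF H b)) = 0 := fun g hg =>
    conv_cj_eq_zero hml hb hlb (hN g) hg
  have heH : ∀ x, x ∉ H → bF H b x = 0 := (invOn_bF hb.1).2
  have hee : conv (bF H b) (bF H b) = bF H b := conv_bF_self hb
  generalize hTdef : stH H l = T at *
  generalize hedef : bF H b = e at *
  have heTs : ∀ x, x ∉ T → e x = 0 := fun x hx => heH x fun h => hx (hHT h)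
  set cT : MonoidAlgebra k T := mkF fun t : T => e t with hcT
  have hcTc : cT ∈ Subalgebra.center k (MonoidAlgebra k T) := mkF_mem fun t x => heT t t.2 x
  have hincT : inc T cT = mkF e := inc_mkF T e heTs
  have hcT2 : cT * cT = cT := by
    apply inc_injective T
    rw [map_mul, hincT, ← mkF_conv, hee]
  refine fong_reynolds p hcTc hcT2 hB.1 hB.2.1 (fun g hg => ?_) ?_
  · rw [hincT]
    have h1 : mkF e * MonoidAlgebra.single g 1 * mkF e =
        mkF e * conjBy g (mkF e) * MonoidAlgebra.single g 1 := by
      unfold conjBy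
      simp only [mul_assoc]
      rw [MonoidAlgebra.single_mul_single, inv_mul_cancel, one_mul, ← MonoidAlgebra.one_def,
        mul_one]
    have h2 : conjBy g (mkF e) = mkF (cj g e) := by
      ext x
      rw [coeff_mkF]
      unfold conjBy cj
      rw [MonoidAlgebra.coeff_mul_single_apply, MonoidAlgebra.coeff_single_mul_apply, coeff_mkF]
      simp [mul_assoc]
    rw [h1, h2, ← mkF_conv, horth g hg]
    have h3 : mkF (0 : G → k) = 0 := by
      ext x
      rw [coeff_mkF]
      rfl
    rw [h3, zero_mul]
  · rw [finsum_eq_sum_of_fintype, hincT]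
    ext x
    rw [MonoidAlgebra.coeff_sum, Finsupp.finsetSum_apply]
    refine (congrFun hcov x).trans ?_
    unfold trG
    refine Finset.sum_congr rfl fun c _ => ?_
    unfold conjBy
    rw [MonoidAlgebra.coeff_mul_single_apply, MonoidAlgebra.coeff_single_mul_apply, coeff_mkF]
    simp [mul_assoc]

end

end P179H12
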